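import Vale.Agent.P319.S2.H767.Low

/-! P319, exponent `1/2`: ITER from STEP. -/

namespace Vale.Agent.P319.S2.H767

open Finset Vale.Agent.P319.SC Vale.Agent.P319.S2.H920

set_option linter.all false

variable {V ι : Type} [Fintype V] [DecidableEq V] [DecidableEq ι] {m : ℕ}

theorem refines_fix {k l : ℕ} {𝒟 : Cfg V ι k} {ℰ : Cfg V ι (l + 1)} (hl : 4 ≤ l)
    (h : Refines 𝒟 ℰ) (x : V) : Refines 𝒟 (ℰ.fix x) := by
  intro j hj v w hvw
  refine h j hj v w ?_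
  have h1 : ℰ.col (j + 1) (cns x v) = ℰ.col (j + 1) (cns x w) := hvw
  exact ℰ.sub j (j + 1) (by omega) (by omega) (fun i => i + 1) (by intro i _; omega) _ _ h1

theorem cl_fix {l : ℕ} {X : Finset V} {ℰ : Cfg V ι (l + 1)} (hl : 1 ≤ l) (h : Cl X ℰ) (x : V) :
    Cl X (ℰ.fix x) := by
  intro a b hab ha
  rw [ℰ.fix_c1 hl, ℰ.fix_c1 hl] at hab
  exact h a b (ℰ.c1_of_c2 (by omega) hab).2 ha

theorem iterStmt_of (hStep : StepStmt) : IterStmt := by
  intro V ι _ _ _ L B G T k X 𝒟 u₁ u₂ u₃ y hB hG hX hk hy h1 h2 h3 hCl hH hBl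
  have key : ∀ t l, l + 3 * t = k → t ≤ T → ∃ ℰ : Cfg V ι l, Refines 𝒟 ℰ ∧ Cl X ℰ ∧
      2 ≤ (ℰ.cls (ℰ.c1 y)).card ∧
      (ℰ.cls (ℰ.c1 y)).card * 2 ^ ((G - 5) * t) ≤ (𝒟.cls (𝒟.c1 y)).card := by
    intro t
    induction t with
    | zero =>
      intro l hl _
      have : l = k := by omega
      subst this
      exact ⟨𝒟, fun j hj v w h => h, hCl, hBl.hy, by simp⟩
    | succ t ih =>
      intro l hl ht
      obtain ⟨ℰ, e1, e2, e3, e4⟩ := ih (l + 3) (by omega) (by omega)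
      obtain ⟨v₁, hv₁, v₂, hv₂, v₃, hv₃, f1, f2⟩ := hStep V ι L B G k l X 𝒟 u₁ u₂ u₃ y ℰ hB hG hX
        (by omega) (by omega) (by omega) (by omega) hy h1 h2 h3 hCl hH hBl e1 e2 e3
      refine ⟨((ℰ.fix v₁).fix v₂).fix v₃, ?_, ?_, f1, ?_⟩
      · exact refines_fix (by omega) (refines_fix (by omega) (refines_fix (by omega) e1 v₁) v₂) v₃
      · exact cl_fix (by omega) (cl_fix (by omega) (cl_fix (by omega) e2 v₁) v₂) v₃
      · refine le_trans ?_ e4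
        rw [show (G - 5) * (t + 1) = (G - 5) + (G - 5) * t by ring, pow_add, ← mul_assoc]
        exact Nat.mul_le_mul_right _ f2
  obtain ⟨ℰ, e1, e2, e3, e4⟩ := key T (k - 3 * T) (by omega) le_rfl
  refine le_trans ?_ e4
  exact Nat.le_mul_of_pos_left _ (by omega)

end Vale.Agent.P319.S2.H767
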