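import Vale.Agent.P319.S2.H920.Spec
import Vale.Agent.P319.SC.Gro

/-! P319, exponent `1/2`: LOW and POW. -/

namespace Vale.Agent.P319.S2.H767

open Finset Vale.Agent.P319.SC Vale.Agent.P319.S2.H920

set_option linter.all false

variable {V ι : Type} [Fintype V] [DecidableEq V] [DecidableEq ι]

/-- forget the high levels -/
def low {l : ℕ} (L : ℕ) (hL : L ≤ l) (𝒟 : Cfg V ι l) : Cfg V ι L where
  col := 𝒟.col
  dep k hk := 𝒟.dep k (hk.trans hL)
  sub j k hj hk := 𝒟.sub j k (hj.trans hL) (hk.trans hL)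
  ext k hk := 𝒟.ext k (by omega)
  eqv k hk := 𝒟.eqv k (hk.trans hL)
  anti2 k hk := 𝒟.anti2 k (hk.trans hL)
  anti3 k hk := 𝒟.anti3 k (hk.trans hL)
  cyc k hk := 𝒟.cyc k (hk.trans hL)

theorem lowStmt : LowStmt := by
  intro V ι _ _ _ L B l hB hL 𝒢 a ha
  exact hB (low L hL 𝒢) a ha

/-- over one more point `a` the class of `b` is at most half as large and not trivial -/
theorem half {m : ℕ} (𝒞 : Cfg V ι (m + 1)) (hm : 2 ≤ m) (a b : V) (hab : a ≠ b)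
    (h : 𝒞.c1 a = 𝒞.c1 b) :
    2 ≤ ((𝒞.fix a).cls ((𝒞.fix a).c1 b)).card ∧
      2 * ((𝒞.fix a).cls ((𝒞.fix a).c1 b)).card ≤ (𝒞.cls (𝒞.c1 a)).card := by
  rw [𝒞.fix_c1 (by omega), ← 𝒞.val_eq_fix (by omega)]
  have h1 := 𝒞.val_pos a b
  have h2 : 𝒞.val a (𝒞.c2 a b) ≠ 1 := Gro.card_ne_one 𝒞 (by omega) rfl h.symm hab
  refine ⟨by omega, ?_⟩
  have h3 := 𝒞.val_flip (by omega) h
  have h4 : Disjoint (univ.filter fun z => 𝒞.c2 a z = 𝒞.c2 a b)
      (univ.filter fun z => 𝒞.c2 a z = 𝒞.c2 b a) := by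
    rw [Finset.disjoint_left]
    intro z hz hz'
    rw [mem_filter] at hz hz'
    exact 𝒞.c2_ne_swap (by omega) hab (hz'.2.symm.trans hz.2)
  have h5 := card_union_of_disjoint h4
  have h6 : (univ.filter fun z => 𝒞.c2 a z = 𝒞.c2 a b) ∪
      (univ.filter fun z => 𝒞.c2 a z = 𝒞.c2 b a) ⊆ 𝒞.cls (𝒞.c1 a) := by
    intro z hz
    rw [𝒞.mem_cls]
    rcases mem_union.1 hz with hz | hz
    · rw [mem_filter] at hz
      rw [(𝒞.c1_of_c2 (by omega) hz.2).2, h]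
    · rw [mem_filter] at hz
      exact (𝒞.c1_of_c2 (by omega) hz.2).2
  have h7 := card_le_card h6
  unfold Cfg.val at h3 ⊢
  omega

theorem powStmt : PowStmt := by
  intro V ι _ _ _ m
  induction m with
  | zero =>
    intro 𝒞 a ha
    omega
  | succ m ih =>
    intro 𝒞 a ha
    rcases Nat.lt_or_ge m 4 with h4 | h4
    · have : 2 ^ (m + 1) ≤ 2 ^ 4 := Nat.pow_le_pow_right (by norm_num) (by omega)
      omega
    · obtain ⟨c, hc, b, hb, hcb⟩ := Finset.one_lt_card.1 ha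
      rw [Cfg.mem_cls] at hc hb
      obtain ⟨h1, h2⟩ := half 𝒞 (by omega) c b hcb (hc.trans hb.symm)
      have h3 := ih (𝒞.fix c) b h1
      rw [hc] at h2
      rw [pow_succ]
      omega

end Vale.Agent.P319.S2.H767
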