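import Vale.Agent.P319.S2.H920.Spec
import Vale.Agent.P319.SC.Gro

/-! P319, exponent `1/2`: MEET. -/

namespace Vale.Agent.P319.S2.H767

open Finset Vale.Agent.P319.SC Vale.Agent.P319.S2.H920

set_option linter.all false

variable {V ι : Type} [Fintype V] [DecidableEq V] [DecidableEq ι] {l : ℕ}

/-- transport of triples over a pair -/
theorem tr5 (𝒟 : Cfg V ι l) (hl : 5 ≤ l) {y z y' : V} (h : 𝒟.c2 y z = 𝒟.c2 y y') :
    ∃ e : V × V × V ≃ V × V × V, ∀ v : V × V × V,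
      𝒟.c4 y v.1 v.2.1 v.2.2 = 𝒟.c4 y (e v).1 (e v).2.1 (e v).2.2 ∧
      𝒟.c4 z v.1 v.2.1 v.2.2 = 𝒟.c4 y' (e v).1 (e v).2.1 (e v).2.2 := by
  have e1 : ∃ e : V ≃ V, ∀ a, 𝒟.col 3 (ins 2 (ins 1 (fun _ => y) z) a) =
      𝒟.col 3 (ins 2 (ins 1 (fun _ => y) y') (e a)) := 𝒟.ext_equiv (by omega) h
  obtain ⟨e1, he1⟩ := e1
  have e2 : ∀ a, ∃ e : V ≃ V, ∀ b, 𝒟.col 4 (ins 3 (ins 2 (ins 1 (fun _ => y) z) a) b) =
      𝒟.col 4 (ins 3 (ins 2 (ins 1 (fun _ => y) y') (e1 a)) (e b)) := fun a =>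
    𝒟.ext_equiv (by omega) (he1 a)
  choose e2 he2 using e2
  have e3 : ∀ a b, ∃ e : V ≃ V, ∀ c, 𝒟.col 5 (ins 4 (ins 3 (ins 2 (ins 1 (fun _ => y) z) a) b) c) =
      𝒟.col 5 (ins 4 (ins 3 (ins 2 (ins 1 (fun _ => y) y') (e1 a)) (e2 a b)) (e c)) := fun a b =>
    𝒟.ext_equiv (by omega) (he2 a b)
  choose e3 he3 using e3
  refine ⟨Equiv.prodShear e1 fun a => Equiv.prodShear (e2 a) fun b => e3 a b, ?_⟩
  rintro ⟨a, b, c⟩
  have h3 := he3 a b c
  have s1 := 𝒟.sub 4 5 (by omega) hl (fun i => if i = 0 then 0 else i + 1)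
    (by intro i _; split_ifs <;> omega) _ _ h3
  have s2 := 𝒟.sub 4 5 (by omega) hl (fun i => i + 1) (by intro i _; omega) _ _ h3
  rw [𝒟.c4_eq (by omega), 𝒟.c4_eq (by omega)] at s1 s2
  constructor
  · simpa [ins] using s1
  · simpa [ins] using s2

theorem meetStmt : MeetStmt := by
  intro V ι _ _ _ l 𝒟 y y' u₁ u₂ u₃ hl
  classical
  set κ := 𝒟.c4 y u₁ u₂ u₃ with hκ
  set A := univ.filter fun v : V × V × V => 𝒟.c4 y v.1 v.2.1 v.2.2 = κ with hA
  have c1 : ∀ z, 𝒟.c2 y z = 𝒟.c2 y y' →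
      (A.filter fun v : V × V × V => 𝒟.c4 z v.1 v.2.1 v.2.2 = κ).card =
      (univ.filter fun v : V × V × V => 𝒟.c4 y v.1 v.2.1 v.2.2 = κ ∧
        𝒟.c4 y' v.1 v.2.1 v.2.2 = κ).card := by
    intro z hz
    obtain ⟨e, he⟩ := tr5 𝒟 (by omega) hz
    rw [hA, filter_filter]
    refine card_bij' (fun v _ => e v) (fun v _ => e.symm v) ?_ ?_ ?_ ?_
    · intro v hv
      simp only [mem_filter, mem_univ, true_and] at hv ⊢
      exact ⟨(he v).1.symm.trans hv.1, (he v).2.symm.trans hv.2⟩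
    · intro v hv
      simp only [mem_filter, mem_univ, true_and] at hv ⊢
      have := he (e.symm v)
      rw [e.apply_symm_apply] at this
      exact ⟨this.1.trans hv.1, this.2.trans hv.2⟩
    · intro v _
      exact e.symm_apply_apply v
    · intro v _
      exact e.apply_symm_apply v
  have c2 : ∀ v ∈ A, (univ.filter fun z => 𝒟.c4 z v.1 v.2.1 v.2.2 = κ).card =
      (univ.filter fun z => 𝒟.c4 z u₁ u₂ u₃ = κ).card := by
    rintro ⟨a, b, c⟩ hv
    simp only [hA, mem_filter, mem_univ, true_and] at hv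
    have h0 : 𝒟.c3 a b c = 𝒟.c3 u₁ u₂ u₃ := (𝒟.c4_sub (by omega) hv).2.2.2
    obtain ⟨e, he⟩ := 𝒟.ext3 (by omega) h0
    have he' : ∀ z, 𝒟.c4 z a b c = 𝒟.c4 (e z) u₁ u₂ u₃ := by
      intro z
      have h1 := 𝒟.c4_rot (by omega) (he z)
      have h2 := 𝒟.c4_rot (by omega) h1
      exact 𝒟.c4_rot (by omega) h2
    refine card_bij' (fun z _ => e z) (fun z _ => e.symm z) ?_ ?_ ?_ ?_
    · intro z hz
      simp only [mem_filter, mem_univ, true_and] at hz ⊢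
      exact (he' z).symm.trans hz
    · intro z hz
      simp only [mem_filter, mem_univ, true_and] at hz ⊢
      have := he' (e.symm z)
      rw [e.apply_symm_apply] at this
      exact this.trans hz
    · intro z _
      exact e.symm_apply_apply z
    · intro z _
      exact e.apply_symm_apply z
  have key : ∑ z ∈ univ.filter (fun z => 𝒟.c2 y z = 𝒟.c2 y y'),
      (A.filter fun v : V × V × V => 𝒟.c4 z v.1 v.2.1 v.2.2 = κ).card =
      ∑ v ∈ A, ((univ.filter fun z => 𝒟.c2 y z = 𝒟.c2 y y').filter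
        fun z => 𝒟.c4 z v.1 v.2.1 v.2.2 = κ).card := by
    simp only [card_filter]
    exact sum_comm
  have k1 : ∑ z ∈ univ.filter (fun z => 𝒟.c2 y z = 𝒟.c2 y y'),
      (A.filter fun v : V × V × V => 𝒟.c4 z v.1 v.2.1 v.2.2 = κ).card =
      𝒟.val y (𝒟.c2 y y') * (univ.filter fun v : V × V × V => 𝒟.c4 y v.1 v.2.1 v.2.2 = κ ∧
        𝒟.c4 y' v.1 v.2.1 v.2.2 = κ).card := by
    rw [sum_const_nat (m := (univ.filter fun v : V × V × V => 𝒟.c4 y v.1 v.2.1 v.2.2 = κ ∧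
        𝒟.c4 y' v.1 v.2.1 v.2.2 = κ).card)]
    · rfl
    · intro z hz
      exact c1 z (mem_filter.1 hz).2
  have k2 : ∑ v ∈ A, ((univ.filter fun z => 𝒟.c2 y z = 𝒟.c2 y y').filter
        fun z => 𝒟.c4 z v.1 v.2.1 v.2.2 = κ).card ≤
      A.card * (univ.filter fun z => 𝒟.c4 z u₁ u₂ u₃ = κ).card := by
    rw [← smul_eq_mul, ← sum_const]
    refine sum_le_sum fun v hv => ?_
    rw [← c2 v hv]
    refine card_le_card fun z hz => ?_
    simp only [mem_filter, mem_univ, true_and] at hz ⊢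
    exact hz.2
  rw [mul_comm, ← k1, key]
  exact k2

end Vale.Agent.P319.S2.H767
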