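import Vale.Agent.P319.S2.H510.Defs2

/-! P319, block S2: the start of the invariant of CORE. -/

namespace Vale.Agent.P319.S2.H767

open Finset Vale.Agent.P319.SC Vale.Agent.P319.SC.H323 Vale.Agent.P319.S2

set_option linter.all false

variable {V ι : Type} [Fintype V] [DecidableEq V] [DecidableEq ι] {k : ℕ}

/-- the row sums of a colour `R` of the class `ρ` -/
theorem row0 (𝒞 : Cfg V ι k) (hk : 2 ≤ k) {ρ R : ι} (hR : R ∈ 𝒞.rels ρ ρ) {v : V}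
    (hv : 𝒞.c1 v = ρ) : ∑ z ∈ 𝒞.cls ρ, chi (𝒞.c2 v z = R) = (𝒞.val v R : ℝ) := by
  rw [sum_chi]
  congr 2
  ext z
  simp only [mem_filter, mem_univ, true_and, 𝒞.mem_cls, and_iff_right_iff_imp]
  intro h
  obtain ⟨a, b, h1, h2, h3⟩ := (𝒞.mem_rels _ _ _).1 hR
  rw [← h3] at h
  exact (𝒞.c1_of_c2 hk h).2.trans h2

theorem cnt0 (𝒞 : Cfg V ι k) (hk : 2 ≤ k) {ρ R : ι} (hR : R ∈ 𝒞.rels ρ ρ) {v : V}
    (hv : 𝒞.c1 v = ρ) : cnt (𝒞.cls ρ) (𝒞.cls ρ) (fun a b => 𝒞.c2 a b = R) =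
      ((𝒞.cls ρ).card : ℝ) * (𝒞.val v R : ℝ) := by
  unfold cnt
  rw [← nsmul_eq_mul, ← sum_const]
  refine sum_congr rfl fun a ha => ?_
  rw [𝒞.mem_cls] at ha
  rw [row0 𝒞 hk hR ha, 𝒞.val_eq hk (ha.trans hv.symm)]

theorem coll0 (𝒞 : Cfg V ι k) (hk : 2 ≤ k) {ρ R : ι} (hR : R ∈ 𝒞.rels ρ ρ) {v : V}
    (hv : 𝒞.c1 v = ρ) : coll 𝒞 (fun a b => 𝒞.c2 a b = R) v v = (𝒞.val v R : ℝ) ^ 2 := by
  unfold coll
  rw [hv]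
  have h : ∀ z ∈ 𝒞.cls ρ, chi (𝒞.c2 v z = R) * (𝒞.val v (𝒞.c2 v z) : ℝ) =
      chi (𝒞.c2 v z = R) * (𝒞.val v R : ℝ) := by
    intro z _
    by_cases hz : 𝒞.c2 v z = R
    · rw [hz]
    · rw [chi_neg hz, zero_mul, zero_mul]
  rw [sum_congr rfl h, ← sum_mul, row0 𝒞 hk hR hv, sq]

end Vale.Agent.P319.S2.H767
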